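import Crest.Agent.R163.Q3.D.B8.S0
import Crest.Agent.R163.Q3.D.B8.H

set_option autoImplicit false
set_option maxRecDepth 100000
set_option linter.all false
set_option Elab.async false

namespace Crest.Agent.R163.B8

theorem p0_0_0 : Ok2 par f0 Box3.unit C0 :=
  Ok2.run hw hf0 ⟨260,19,19,7,12⟩ 58
    (.chk false 2048)
    (by decide +kernel)

theorem p0_1_0 : Ok2 par f1 Box3.unit (selB2 1 C0 590295810358604988415) :=
  Ok2.run hw hf1 ⟨260,19,19,7,12⟩ 58
    (.chk false 2048)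
    (by decide +kernel)

theorem p0_1_1 : Ok2 par f1 Box3.unit (selB2 0 C0 590295810358604988415) :=
  Ok2.run hw hf1 ⟨401,19,19,7,12⟩ 58
    (.split 1 (.split 0 (.chk false 0) (.split 1 (.part 2 (.chk false 0) (.split 0 (.chk false 0) (.split 1 (.split 0 (.chk false 0) (.chk false 0)) (.chk false 0)))) (.chk false 0))) (.chk false 0))
    (by decide +kernel)

theorem p0_2_0 : Ok2 par f2 ((Box3.unit.l 1).r 0) (selB2 1 (selB2 0 (selB2 0 C0 295193219664318922751) 7117733272) 88) :=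
  Ok2.run hw hf2 ⟨318,19,19,7,12⟩ 58
    (.chk false 0)
    (by decide +kernel)

theorem p0_2_1 : Ok2 par f2 ((Box3.unit.l 1).r 0) (selB2 0 (selB2 0 (selB2 0 C0 295193219664318922751) 7117733272) 88) :=
  Ok2.run hw hf2 ⟨424,19,19,7,12⟩ 58
    (.split 1 (.part 975 (.chk false 2048) (.split 0 (.part 1 (.chk false 0) (.split 1 (.split 1 (.chk false 0) (.chk false 0)) (.chk false 0))) (.chk false 0))) (.part 319 (.chk false 2048) (.split 1 (.chk false 0) (.split 1 (.chk false 0) (.part 1 (.chk false 0) (.split 0 (.chk false 0) (.split 0 (.chk false 0) (.split 1 (.chk false 0) (.chk false 0)))))))))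
    (by decide +kernel)

theorem p0_2_2 : Ok2 par f2 ((Box3.unit.l 1).l 0) (selB2 0 (selB2 0 C0 295193219664318922751) 7117733272) :=
  Ok2.run hw hf2 ⟨440,19,19,7,12⟩ 58
    (.part 8103 (.chk false 2048) (.split 0 (.part 2 (.chk false 0) (.split 1 (.split 1 (.part 2 (.chk false 0) (.split 0 (.split 1 (.split 0 (.chk false 0) (.chk false 0)) (.chk false 0)) (.chk false 0))) (.chk false 0)) (.chk false 0))) (.part 3 (.chk false 0) (.split 1 (.split 1 (.split 0 (.chk false 0) (.chk false 0)) (.split 0 (.chk false 0) (.chk false 0))) (.chk false 0)))))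
    (by decide +kernel)

theorem p0_2_3 : Ok2 par f2 (Box3.unit.l 1) (selB2 1 (selB2 0 C0 295193219664318922751) 7117733272) :=
  Ok2.run hw hf2 ⟨290,19,19,7,12⟩ 58
    (.chk false 2048)
    (by decide +kernel)

theorem p0_2_4 : Ok2 par f2 (((Box3.unit.r 1).r 0).l 1) (selB2 1 (selB2 0 (selB2 0 C0 295193219664318922751) 131072743) 16383) :=
  Ok2.run hw hf2 ⟨332,19,19,7,12⟩ 58
    (.chk false 2048)
    (by decide +kernel)

theorem p0_2_5 : Ok2 par f2 (((Box3.unit.r 1).r 0).l 1) (selB2 0 (selB2 0 (selB2 0 C0 295193219664318922751) 131072743) 16383) :=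
  Ok2.run hw hf2 ⟨409,19,19,7,12⟩ 58
    (.split 1 (.part 23 (.chk false 0) (.split 1 (.part 2 (.chk false 0) (.split 0 (.chk false 0) (.split 1 (.chk false 0) (.chk false 0)))) (.chk false 0))) (.part 42 (.chk false 0) (.split 1 (.split 0 (.chk false 0) (.part 1 (.chk false 0) (.split 1 (.chk false 0) (.chk false 0)))) (.part 4 (.chk false 0) (.split 0 (.chk false 0) (.chk false 0))))))
    (by decide +kernel)

theorem p0_2_6 : Ok2 par f2 (((((Box3.unit.r 1).r 0).r 1).r 0).r 1) (selB2 1 (selB2 0 (selB2 0 (selB2 0 C0 295193219664318922751) 131072743) 1040385) 399) :=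
  Ok2.run hw hf2 ⟨382,19,19,7,12⟩ 58
    (.chk false 2048)
    (by decide +kernel)

theorem p0_2_7 : Ok2 par f2 (((((Box3.unit.r 1).r 0).r 1).r 0).r 1) (selB2 0 (selB2 0 (selB2 0 (selB2 0 C0 295193219664318922751) 131072743) 1040385) 399) :=
  Ok2.run hw hf2 ⟨513,19,19,7,12⟩ 58
    (.split 0 (.chk false 0) (.split 1 (.part 47 (.chk false 0) (.split 0 (.chk false 0) (.split 1 (.chk false 0) (.chk false 0)))) (.part 30 (.chk false 0) (.split 0 (.chk false 0) (.split 1 (.chk false 0) (.part 2 (.chk false 0) (.split 0 (.chk false 0) (.split 0 (.chk false 0) (.split 1 (.chk false 0) (.chk false 0))))))))))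
    (by decide +kernel)

theorem p0_2_8 : Ok2 par f2 (((((Box3.unit.r 1).r 0).r 1).r 0).l 1) (selB2 0 (selB2 0 (selB2 0 C0 295193219664318922751) 131072743) 1040385) :=
  Ok2.run hw hf2 ⟨490,19,19,7,12⟩ 58
    (.part 3965 (.chk false 2048) (.split 1 (.chk false 0) (.part 1 (.chk false 0) (.split 0 (.chk false 0) (.split 1 (.split 0 (.chk false 0) (.split 0 (.chk false 0) (.split 1 (.chk false 0) (.chk false 0)))) (.chk false 0))))))
    (by decide +kernel)

theorem p0_2_9 : Ok2 par f2 ((((Box3.unit.r 1).r 0).r 1).l 0) (selB2 0 (selB2 0 (selB2 0 C0 295193219664318922751) 131072743) 1040385) :=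
  Ok2.run hw hf2 ⟨354,19,19,7,12⟩ 58
    (.chk false 2048)
    (by decide +kernel)

theorem p0_2_10 : Ok2 par f2 (((Box3.unit.r 1).r 0).r 1) (selB2 1 (selB2 0 (selB2 0 C0 295193219664318922751) 131072743) 1040385) :=
  Ok2.run hw hf2 ⟨340,19,19,7,12⟩ 58
    (.chk false 1024)
    (by decide +kernel)

theorem p0_2_11 : Ok2 par f2 ((Box3.unit.r 1).l 0) (selB2 0 (selB2 0 C0 295193219664318922751) 131072743) :=
  Ok2.run hw hf2 ⟨318,19,19,7,12⟩ 58
    (.chk false 2048)
    (by decide +kernel)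

theorem p0_2_12 : Ok2 par f2 (Box3.unit.r 1) (selB2 1 (selB2 0 C0 295193219664318922751) 131072743) :=
  Ok2.run hw hf2 ⟨290,19,19,7,12⟩ 58
    (.chk false 2048)
    (by decide +kernel)

theorem p0_2_13 : Ok2 par f2 Box3.unit (selB2 1 C0 295193219664318922751) :=
  Ok2.run hw hf2 ⟨261,19,19,7,12⟩ 58
    (.chk false 2048)
    (by decide +kernel)

theorem p0_3_0 : Ok2 par f3 ((((Box3.unit.r 1).r 0).r 1).r 0) (selB2 1 (selB2 0 (selB2 0 (selB2 0 C0 295219962773139095551) 16) 1) 575) :=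
  Ok2.run hw hf3 ⟨361,19,19,7,12⟩ 58
    (.chk false 0)
    (by decide +kernel)

theorem p0_3_1 : Ok2 par f3 ((((Box3.unit.r 1).r 0).r 1).r 0) (selB2 0 (selB2 0 (selB2 0 (selB2 0 C0 295219962773139095551) 16) 1) 575) :=
  Ok2.run hw hf3 ⟨453,19,19,7,12⟩ 58
    (.split 0 (.part 109 (.chk false 0) (.split 1 (.chk false 0) (.split 0 (.chk false 0) (.part 1 (.chk false 0) (.split 1 (.chk false 0) (.split 0 (.chk false 0) (.chk false 0))))))) (.part 83 (.chk false 0) (.split 1 (.chk false 0) (.split 0 (.part 3 (.chk false 0) (.split 1 (.chk false 0) (.chk false 0))) (.chk false 0)))))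
    (by decide +kernel)

theorem p0_3_2 : Ok2 par f3 ((((Box3.unit.r 1).r 0).r 1).l 0) (selB2 0 (selB2 0 (selB2 0 C0 295219962773139095551) 16) 1) :=
  Ok2.run hw hf3 ⟨412,19,19,7,12⟩ 58
    (.part 16321 (.chk false 0) (.split 0 (.chk false 0) (.part 7 (.chk false 0) (.split 1 (.chk false 0) (.part 2 (.chk false 0) (.split 0 (.chk false 0) (.chk false 0)))))))
    (by decide +kernel)

theorem p0_3_3 : Ok2 par f3 (((Box3.unit.r 1).r 0).r 1) (selB2 1 (selB2 0 (selB2 0 C0 295219962773139095551) 16) 1) :=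
  Ok2.run hw hf3 ⟨339,19,19,7,12⟩ 58
    (.chk false 0)
    (by decide +kernel)

theorem p0_3_4 : Ok2 par f3 (((Box3.unit.r 1).r 0).l 1) (selB2 0 (selB2 0 C0 295219962773139095551) 16) :=
  Ok2.run hw hf3 ⟨330,19,19,7,12⟩ 58
    (.chk false 0)
    (by decide +kernel)

theorem p0_3_5 : Ok2 par f3 ((Box3.unit.r 1).r 0) (selB2 1 (selB2 0 C0 295219962773139095551) 16) :=
  Ok2.run hw hf3 ⟨317,19,19,7,12⟩ 58
    (.chk false 0)
    (by decide +kernel)

theorem p0_3_6 : Ok2 par f3 ((Box3.unit.r 1).l 0) (selB2 0 C0 295219962773139095551) :=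
  Ok2.run hw hf3 ⟨460,19,19,7,12⟩ 58
    (.part 65534 (.chk false 0) (.split 1 (.chk false 0) (.split 0 (.chk false 0) (.split 1 (.chk false 0) (.split 0 (.chk false 0) (.split 1 (.chk false 0) (.split 0 (.chk false 0) (.split 1 (.chk false 0) (.split 0 (.chk false 0) (.chk false 0))))))))))
    (by decide +kernel)

theorem p0_3_7 : Ok2 par f3 (Box3.unit.l 1) (selB2 0 C0 295219962773139095551) :=
  Ok2.run hw hf3 ⟨288,19,19,7,12⟩ 58
    (.chk false 0)
    (by decide +kernel)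

theorem p0_3_8 : Ok2 par f3 Box3.unit (selB2 1 C0 295219962773139095551) :=
  Ok2.run hw hf3 ⟨260,19,19,7,12⟩ 58
    (.chk false 2048)
    (by decide +kernel)

theorem p0_4_0 : Ok2 par f4 (((Box3.unit.r 0).r 0).l 1) (selB2 0 C0 590295610900424425471) :=
  Ok2.run hw hf4 ⟨440,19,19,7,12⟩ 58
    (.part 12 (.chk false 0) (.split 0 (.chk false 0) (.split 1 (.part 1 (.chk false 0) (.split 0 (.chk false 0) (.part 16 (.chk false 0) (.split 1 (.part 11 (.chk false 0) (.split 1 (.chk false 0) (.chk false 0))) (.chk false 0))))) (.chk false 0))))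
    (by decide +kernel)

theorem p0_4_1 : Ok2 par f4 (((Box3.unit.r 0).r 0).r 1) (selB2 0 C0 590295610900424425471) :=
  Ok2.run hw hf4 ⟨362,19,19,7,12⟩ 58
    (.part 251 (.chk false 0) (.split 1 (.chk false 0) (.chk false 0)))
    (by decide +kernel)

theorem p0_4_2 : Ok2 par f4 ((Box3.unit.r 0).l 0) (selB2 0 C0 590295610900424425471) :=
  Ok2.run hw hf4 ⟨303,19,19,7,12⟩ 58
    (.chk false 0)
    (by decide +kernel)

theorem p0_4_3 : Ok2 par f4 (Box3.unit.l 0) (selB2 0 C0 590295610900424425471) :=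
  Ok2.run hw hf4 ⟨290,19,19,7,12⟩ 58
    (.chk false 0)
    (by decide +kernel)

theorem p0_4_4 : Ok2 par f4 Box3.unit (selB2 1 C0 590295610900424425471) :=
  Ok2.run hw hf4 ⟨261,19,19,7,12⟩ 58
    (.chk false 2048)
    (by decide +kernel)

theorem p0_5_0 : Ok2 par f5 (((((Box3.unit.l 0).r 1).r 0).r 1).l 0) (selB2 0 (selB2 0 (selB2 0 (selB2 0 (selB2 0 C0 590286882325893830143) 127) 24347) 193) 64) :=
  Ok2.run hw hf5 ⟨501,19,19,7,12⟩ 58
    (.part 14 (.chk false 0) (.split 1 (.chk false 0) (.split 0 (.part 11 (.chk false 0) (.split 1 (.chk false 0) (.split 0 (.chk false 0) (.chk false 0)))) (.part 14 (.chk false 0) (.split 1 (.chk false 0) (.split 0 (.chk false 0) (.split 1 (.chk false 0) (.split 0 (.split 1 (.chk false 0) (.chk false 0)) (.chk false 0)))))))))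
    (by decide +kernel)

theorem p0_5_1 : Ok2 par f5 (((((Box3.unit.l 0).r 1).r 0).r 1).r 0) (selB2 0 (selB2 0 (selB2 0 (selB2 0 (selB2 0 C0 590286882325893830143) 127) 24347) 193) 64) :=
  Ok2.run hw hf5 ⟨427,19,19,7,12⟩ 58
    (.part 96 (.chk false 0) (.split 1 (.chk false 0) (.part 20 (.chk false 0) (.split 0 (.part 6 (.chk false 0) (.split 1 (.chk false 0) (.chk false 0))) (.part 3 (.chk false 0) (.split 1 (.chk false 0) (.chk false 0)))))))
    (by decide +kernel)

theorem p0_5_2 : Ok2 par f5 ((((Box3.unit.l 0).r 1).r 0).r 1) (selB2 1 (selB2 0 (selB2 0 (selB2 0 (selB2 0 C0 590286882325893830143) 127) 24347) 193) 64) :=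
  Ok2.run hw hf5 ⟨353,19,19,7,12⟩ 58
    (.chk false 0)
    (by decide +kernel)

theorem p0_5_3 : Ok2 par f5 ((((Box3.unit.l 0).r 1).r 0).l 1) (selB2 0 (selB2 0 (selB2 0 (selB2 0 C0 590286882325893830143) 127) 24347) 193) :=
  Ok2.run hw hf5 ⟨345,19,19,7,12⟩ 58
    (.chk false 0)
    (by decide +kernel)

theorem p0_5_4 : Ok2 par f5 (((Box3.unit.l 0).r 1).r 0) (selB2 1 (selB2 0 (selB2 0 (selB2 0 C0 590286882325893830143) 127) 24347) 193) :=
  Ok2.run hw hf5 ⟨331,19,19,7,12⟩ 58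
    (.chk false 0)
    (by decide +kernel)


end Crest.Agent.R163.B8
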