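import Crest.Agent.R163.Q3.D.B8.S0
import Crest.Agent.R163.Q3.D.B8.H

set_option autoImplicit false
set_option maxRecDepth 100000
set_option linter.all false
set_option Elab.async false

namespace Crest.Agent.R163.B8

theorem p0_5_5 : Ok2 par f5 (((Box3.unit.l 0).r 1).l 0) (selB2 0 (selB2 0 (selB2 0 C0 590286882325893830143) 127) 24347) :=
  Ok2.run hw hf5 ⟨489,19,19,7,12⟩ 58
    (.part 1342 (.chk false 0) (.split 1 (.chk false 0) (.split 0 (.chk false 0) (.part 7 (.chk false 0) (.split 1 (.chk false 0) (.split 0 (.split 1 (.chk false 0) (.chk false 0)) (.split 1 (.chk false 0) (.split 0 (.split 1 (.chk false 0) (.split 0 (.chk false 0) (.chk false 0))) (.chk false 0)))))))))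
    (by decide +kernel)

theorem p0_5_6 : Ok2 par f5 ((Box3.unit.l 0).l 1) (selB2 0 (selB2 0 (selB2 0 C0 590286882325893830143) 127) 24347) :=
  Ok2.run hw hf5 ⟨318,19,19,7,12⟩ 58
    (.chk false 0)
    (by decide +kernel)

theorem p0_5_7 : Ok2 par f5 (Box3.unit.l 0) (selB2 1 (selB2 0 (selB2 0 C0 590286882325893830143) 127) 24347) :=
  Ok2.run hw hf5 ⟨289,19,19,7,12⟩ 58
    (.chk false 0)
    (by decide +kernel)

theorem p0_5_8 : Ok2 par f5 (((((Box3.unit.r 0).r 1).l 0).r 1).l 0) (selB2 0 (selB2 0 (selB2 0 (selB2 0 (selB2 0 C0 590286882325893830143) 127) 2031620) 16510) 21) :=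
  Ok2.run hw hf5 ⟨442,19,19,7,12⟩ 58
    (.part 7 (.chk false 0) (.split 1 (.chk false 0) (.part 1 (.chk false 0) (.split 0 (.split 1 (.chk false 0) (.split 0 (.chk false 0) (.chk false 0))) (.chk false 0)))))
    (by decide +kernel)

theorem p0_5_9 : Ok2 par f5 (((((Box3.unit.r 0).r 1).l 0).r 1).r 0) (selB2 0 (selB2 0 (selB2 0 (selB2 0 (selB2 0 C0 590286882325893830143) 127) 2031620) 16510) 21) :=
  Ok2.run hw hf5 ⟨466,19,19,7,12⟩ 58
    (.part 24 (.chk false 0) (.split 1 (.chk false 0) (.part 1 (.chk false 0) (.split 0 (.split 1 (.chk false 0) (.split 0 (.chk false 0) (.part 1 (.chk false 0) (.split 1 (.chk false 0) (.chk false 0))))) (.chk false 0)))))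
    (by decide +kernel)

theorem p0_5_10 : Ok2 par f5 ((((Box3.unit.r 0).r 1).l 0).l 1) (selB2 0 (selB2 0 (selB2 0 (selB2 0 (selB2 0 C0 590286882325893830143) 127) 2031620) 16510) 21) :=
  Ok2.run hw hf5 ⟨345,19,19,7,12⟩ 58
    (.chk false 0)
    (by decide +kernel)

theorem p0_5_11 : Ok2 par f5 (((Box3.unit.r 0).r 1).l 0) (selB2 1 (selB2 0 (selB2 0 (selB2 0 (selB2 0 C0 590286882325893830143) 127) 2031620) 16510) 21) :=
  Ok2.run hw hf5 ⟨331,19,19,7,12⟩ 58
    (.chk false 0)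
    (by decide +kernel)

theorem p0_5_12 : Ok2 par f5 (((Box3.unit.r 0).r 1).r 0) (selB2 0 (selB2 0 (selB2 0 (selB2 0 C0 590286882325893830143) 127) 2031620) 16510) :=
  Ok2.run hw hf5 ⟨362,19,19,7,12⟩ 58
    (.part 213 (.chk false 0) (.split 1 (.chk false 0) (.chk false 0)))
    (by decide +kernel)

theorem p0_5_13 : Ok2 par f5 ((Box3.unit.r 0).r 1) (selB2 1 (selB2 0 (selB2 0 (selB2 0 C0 590286882325893830143) 127) 2031620) 16510) :=
  Ok2.run hw hf5 ⟨318,19,19,7,12⟩ 58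
    (.chk false 0)
    (by decide +kernel)

theorem p0_5_14 : Ok2 par f5 ((Box3.unit.r 0).l 1) (selB2 0 (selB2 0 (selB2 0 C0 590286882325893830143) 127) 2031620) :=
  Ok2.run hw hf5 ⟨318,19,19,7,12⟩ 58
    (.chk false 0)
    (by decide +kernel)

theorem p0_5_15 : Ok2 par f5 (Box3.unit.r 0) (selB2 1 (selB2 0 (selB2 0 C0 590286882325893830143) 127) 2031620) :=
  Ok2.run hw hf5 ⟨289,19,19,7,12⟩ 58
    (.chk false 0)
    (by decide +kernel)

theorem p0_5_16 : Ok2 par f5 Box3.unit (selB2 1 (selB2 0 C0 590286882325893830143) 127) :=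
  Ok2.run hw hf5 ⟨304,25,25,7,13⟩ 58
    (.chk true 0)
    (by decide +kernel)

theorem p0_5_17 : Ok2 par f5 Box3.unit (selB2 1 C0 590286882325893830143) :=
  Ok2.run hw hf5 ⟨261,19,19,7,12⟩ 58
    (.chk false 1024)
    (by decide +kernel)

theorem p0_6_0 : Ok2 par f6 Box3.unit (selB2 1 (selB2 0 C0 590295807607235237375) 255) :=
  Ok2.run hw hf6 ⟨314,25,25,7,13⟩ 58
    (.chk true 0)
    (by decide +kernel)

theorem p0_6_1 : Ok2 par f6 Box3.unit (selB2 0 (selB2 0 C0 590295807607235237375) 255) :=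
  Ok2.run hw hf6 ⟨425,19,19,7,12⟩ 58
    (.split 0 (.chk false 0) (.part 3 (.chk false 0) (.split 1 (.split 1 (.split 0 (.chk false 0) (.split 1 (.part 1 (.chk false 0) (.split 0 (.chk false 0) (.split 1 (.chk false 0) (.chk false 0)))) (.chk false 0))) (.chk false 0)) (.chk false 0))))
    (by decide +kernel)

theorem p0_6_2 : Ok2 par f6 Box3.unit (selB2 1 C0 590295807607235237375) :=
  Ok2.run hw hf6 ⟨265,19,19,7,12⟩ 58
    (.chk false 0)
    (by decide +kernel)

theorem p0_7_0 : Ok2 par f7 (((Box3.unit.l 0).l 1).l 0) (selB2 0 (selB2 0 (selB2 0 (selB2 0 C0 590295802083907294719) 255) 4) 80) :=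
  Ok2.run hw hf7 ⟨481,19,19,13,13⟩ 58
    (.part 7 (.chk false 0) (.split 1 (.chk false 0) (.part 1 (.chk false 0) (.split 0 (.split 1 (.chk false 0) (.split 0 (.split 1 (.chk false 0) (.chk false 0)) (.chk false 0))) (.chk false 0)))))
    (by decide +kernel)

theorem p0_7_1 : Ok2 par f7 (((Box3.unit.l 0).l 1).r 0) (selB2 0 (selB2 0 (selB2 0 (selB2 0 C0 590295802083907294719) 255) 4) 80) :=
  Ok2.run hw hf7 ⟨386,19,19,13,13⟩ 58
    (.chk false 0)
    (by decide +kernel)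

theorem p0_7_2 : Ok2 par f7 ((Box3.unit.l 0).l 1) (selB2 1 (selB2 0 (selB2 0 (selB2 0 C0 590295802083907294719) 255) 4) 80) :=
  Ok2.run hw hf7 ⟨373,19,19,13,13⟩ 58
    (.chk false 0)
    (by decide +kernel)

theorem p0_7_3 : Ok2 par f7 ((Box3.unit.l 0).r 1) (selB2 0 (selB2 0 (selB2 0 C0 590295802083907294719) 255) 4) :=
  Ok2.run hw hf7 ⟨395,19,19,13,13⟩ 58
    (.part 123 (.chk false 0) (.split 0 (.chk false 0) (.chk false 0)))
    (by decide +kernel)

theorem p0_7_4 : Ok2 par f7 (Box3.unit.l 0) (selB2 1 (selB2 0 (selB2 0 C0 590295802083907294719) 255) 4) :=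
  Ok2.run hw hf7 ⟨344,19,19,13,13⟩ 58
    (.chk false 0)
    (by decide +kernel)

theorem p0_7_5 : Ok2 par f7 (Box3.unit.r 0) (selB2 0 (selB2 0 C0 590295802083907294719) 255) :=
  Ok2.run hw hf7 ⟨344,19,19,13,13⟩ 58
    (.chk false 0)
    (by decide +kernel)

theorem p0_7_6 : Ok2 par f7 Box3.unit (selB2 1 (selB2 0 C0 590295802083907294719) 255) :=
  Ok2.run hw hf7 ⟨365,25,25,13,13⟩ 58
    (.chk true 0)
    (by decide +kernel)

theorem p0_7_7 : Ok2 par f7 Box3.unit (selB2 1 C0 590295802083907294719) :=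
  Ok2.run hw hf7 ⟨316,19,19,13,13⟩ 58
    (.chk false 0)
    (by decide +kernel)


end Crest.Agent.R163.B8
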